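import Vale.Agent.P366.H222.K.Rest

/-! The inequality and the case of equality in one frame, with a correction of the flux field. -/

open MeasureTheory Metric Filter Topology Set
open scoped ContDiff ENNReal

noncomputable section
namespace Vale.Agent.P366.KSD

open Vale.Agent.P366 (pd E flux sphI)
open Vale.Agent.P366.H353.N
open Vale.Agent.P366.Kerr (NullCone Psi pt sp indG indK sgn ksL ein IsKS FutTimelike DECatL IsGraph
  IsSliceL HasDEC)
open Vale.Agent.P366.KSN (Y dts sg)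
open Vale.Agent.P366.KSL

variable {n : ℕ} {C : NullCone n} {l : Fin (n + 1) → E (n + 1) → ℝ} {V : E (n + 1) → ℝ}
  {f : E n → ℝ} {D : Stmt.Exterior n} {p : E (n + 1)} {x y : E n} {B : Fin n → E n → ℝ}
  {ξ : Fin (n + 1) → ℝ}

/-- the boundary integrand, with the flux of the correction `B` -/
def wB (C : NullCone n) (l : Fin (n + 1) → E (n + 1) → ℝ) (V : E (n + 1) → ℝ) (a : Fin n → ℝ)
    (B : Fin n → E n → ℝ) (x : E n) : ℝ :=
  wS C l V x * (Shell.e0 a + ∑ i, a i * x i) +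
    2 * (dts C.H (C.U x) x * ∑ i, B i (Y C.H x (C.U x)) * (x i - C.toDat.b x i))

/-- The flux field `Fa + B` of the frame `(e0 a, a)` has nonnegative divergence and the right flux
at infinity and through the boundary. -/
structure PosB (C : NullCone n) (l : Fin (n + 1) → E (n + 1) → ℝ) (V : E (n + 1) → ℝ)
    (f : E n → ℝ) (D : Stmt.Exterior n) (a : Fin n → ℝ) (B : Fin n → E n → ℝ) (m : ℝ)
    (P : Fin n → ℝ) : Prop extends IsGraph C l V f D where
  geob : ∀ x : E n, ‖x‖ = 1 → V (pt (f (Y C.H x (C.U x))) (Y C.H x (C.U x))) = 0 ∨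
    ∃ κ : ℝ, ∀ a, acc l a (pt (f (Y C.H x (C.U x))) (Y C.H x (C.U x))) =
      κ * l a (pt (f (Y C.H x (C.U x))) (Y C.H x (C.U x)))
  smB : ∀ i y, 0 ≤ D.F y → ContDiffAt ℝ ∞ (B i) y
  bdB : ∀ T : Ten n, T.A = C.toDat.A → T.b = C.toDat.b → ∀ x : E n, ‖x‖ = 1 →
    qT T x * (Shell.e0 a + ∑ i, a i * x i) ≤ wB C l V a B x
  pos : ∀ y, 0 ≤ D.F y → 0 ≤ ∑ i, pd i (fun z => Fa l V f a i z + B i z) y
  lim : Tendsto (flux fun i z => Fa l V f a i z + B i z) atTop (𝓝 (((n : ℝ) - 1) * om n *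
    (Shell.e0 a * m + ∑ i, a i * P i)))

variable {m : ℝ} {P : Fin n → ℝ} {a : Fin n → ℝ}

/-- the boundary term -/
theorem Z_bdrB (hS : IsSliceL C l V f D) (hD : PosB C l V f D a B m P) (hx : ‖x‖ = 1)
    (b : Fin (n + 1)) :
    dts C.H (C.U x) x * ∑ i, Zf l V f b i (Y C.H x (C.U x)) * (x i - C.toDat.b x i) =
      -(1 / 2 * (V (pt (- C.U x) (Y C.H x (C.U x))) * l 0 (pt (- C.U x) (Y C.H x (C.U x))) ^ 2 *
        sg C.H (C.U x) x)) * lx x b := by
  have hy : 0 ≤ D.F (Y C.H x (C.U x)) := (dom_iff hS.dom).2 ⟨x, C.U x, hx, le_rfl, rfl⟩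
  have hU := C.pos x (ne_zero_of_one hx)
  have hfb : f (Y C.H x (C.U x)) = - C.U x := by
    have h := hD.bdr (C.U x • x) (smul_ne_zero hU.ne' (ne_zero_of_one hx)) (by
      rw [KSN.U_smul C (ne_zero_of_one hx) hU, KSN.norm_smul_unit hx hU.le])
    rwa [KSN.Y_eq C hx hU, KSN.U_smul C (ne_zero_of_one hx) hU] at h
  have hK := hD.ks _ hy
  have hg := hD.geob x hx
  rw [hfb] at hK hg
  exact n_Z_bdr (hD.smf _ hy) hD.bdr hK hg hS.nor hx b

theorem bdr_Fa_pt (hS : IsSliceL C l V f D) (hD : PosB C l V f D a B m P) (hx : ‖x‖ = 1) :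
    dts C.H (C.U x) x * ∑ i, Fa l V f a i (Y C.H x (C.U x)) * (x i - C.toDat.b x i) =
      1 / 2 * (wS C l V x * (Shell.e0 a + ∑ i, a i * x i)) := by
  have e1 : dts C.H (C.U x) x * ∑ i, Fa l V f a i (Y C.H x (C.U x)) * (x i - C.toDat.b x i) =
      -∑ b, xi a b * (dts C.H (C.U x) x *
        ∑ i, Zf l V f b i (Y C.H x (C.U x)) * (x i - C.toDat.b x i)) := by
    simp only [Fa, Finset.mul_sum, Finset.sum_mul, neg_mul, mul_neg,
      Finset.sum_neg_distrib]
    rw [Finset.sum_comm]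
    congr 1
    exact Finset.sum_congr rfl fun b _ => Finset.sum_congr rfl fun i _ => by ring
  rw [e1]
  simp only [Z_bdrB hS hD hx]
  rw [Fin.sum_univ_succ]
  simp only [xi, lx, Fin.cons_zero, Fin.cons_succ, wS]
  have e2 : ∀ i : Fin n, a i * (-(1 / 2 * (V (pt (- C.U x) (Y C.H x (C.U x))) *
      l 0 (pt (- C.U x) (Y C.H x (C.U x))) ^ 2 * sg C.H (C.U x) x)) * x i) =
      -(1 / 2 * (V (pt (- C.U x) (Y C.H x (C.U x))) *
      l 0 (pt (- C.U x) (Y C.H x (C.U x))) ^ 2 * sg C.H (C.U x) x)) * (a i * x i) :=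
    fun i => by ring
  simp only [e2, ← Finset.mul_sum]
  ring

theorem bdr_FaB (hS : IsSliceL C l V f D) (hD : PosB C l V f D a B m P) :
    SI (fun x => dts C.H (C.U x) x *
      ∑ i, (Fa l V f a i (Y C.H x (C.U x)) + B i (Y C.H x (C.U x))) *
        (x i - C.toDat.b x i)) = 1 / 2 * SI (wB C l V a B) := by
  rw [← SI_cmul]
  refine SI_congr fun x hx => ?_
  have e0 : ∑ i, (Fa l V f a i (Y C.H x (C.U x)) + B i (Y C.H x (C.U x))) *
      (x i - C.toDat.b x i) =
      ∑ i, Fa l V f a i (Y C.H x (C.U x)) * (x i - C.toDat.b x i) +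
      ∑ i, B i (Y C.H x (C.U x)) * (x i - C.toDat.b x i) := by
    rw [← Finset.sum_add_distrib]
    exact Finset.sum_congr rfl fun i _ => by ring
  rw [e0, mul_add, bdr_Fa_pt hS hD hx]
  unfold wB
  ring

theorem wB_cont (hS : IsSliceL C l V f D) (hD : PosB C l V f D a B m P) {T : Ten n}
    (hTb : T.b = C.toDat.b) : ContinuousOn (wB C l V a B) (sphere (0 : E n) 1) := by
  have hax : ContinuousOn (fun x : E n => Shell.e0 a + ∑ i, a i * x i) (sphere (0 : E n) 1) :=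
    ((Sm.const (Shell.e0 a)).add (Sm.sum _ fun i => (Sm.const (a i)).mul (Sm.coord i))).contOn
  have hb : ∀ i, ContinuousOn (fun x : E n => x i - C.toDat.b x i) (sphere (0 : E n) 1) := by
    intro i
    rw [← hTb]
    exact ((Sm.coord i).sub (T.smb i)).contOn
  have hB : ∀ i, ContinuousOn (fun x : E n => B i (Y C.H x (C.U x))) (sphere (0 : E n) 1) := by
    intro i x hx
    have hx1 : ‖x‖ = 1 := by simpa using hx
    exact (ContinuousAt.comp (g := B i) (f := fun x : E n => Y C.H x (C.U x)) (x := x)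
      (hD.smB i _ (mem_Y hS.dom hx1 le_rfl)).continuousAt
      (KSN.Y_comp C (KSN.smU C) (ne_zero_of_one hx1)).continuousAt).continuousWithinAt
  have h1 : ContinuousOn (fun x : E n =>
      ∑ i, B i (Y C.H x (C.U x)) * (x i - C.toDat.b x i)) (sphere (0 : E n) 1) :=
    continuousOn_finset_sum _ fun i _ => (hB i).mul (hb i)
  exact ((wS_cont hS).mul hax).add
    (continuousOn_const.mul ((KSN.dts_cont C (KSN.smU C)).mul h1))

/-- Equality in the frame of the vector `(e0 a, a)`. -/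
theorem frame_eqB [Fact (3 ≤ n)] (hS : IsSliceL C l V f D) (hD : PosB C l V f D a B m P)
    {T : Ten n} (hTA : T.A = C.toDat.A) (hTb : T.b = C.toDat.b)
    (heq : Shell.e0 a * m + ∑ i, a i * P i ≤
      1 / 2 * (SI C.toDat.dt / om n) ^ (((n : ℝ) - 2) / ((n : ℝ) - 1))) :
    (∀ y, 0 ≤ D.F y → ∑ i, pd i (fun z => Fa l V f a i z + B i z) y = 0) ∧
    SI (wB C l V a B) = 1 / 2 * (SI C.toDat.dt / om n) ^ (((n : ℝ) - 2) / ((n : ℝ) - 1)) *
        (2 * ((n : ℝ) - 1) * om n) := by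
  have h3 := Fact.out (p := 3 ≤ n)
  have hn : (3 : ℝ) ≤ (n : ℝ) := by exact_mod_cast h3
  have hom : 0 < om n := om_pos
  have hlim := hD.lim
  have hst := stokes (D := D) (C := C) hS.dom hS.bdF (F := fun i z => Fa l V f a i z + B i z)
    (fun i y hy => (Fa_smooth hD.toIsGraph hy a i).add (hD.smB i y hy))
    hD.pos hlim
  rw [bdr_FaB hS hD] at hst
  have hqS : Sm (qT T) := qT_sm T
  have hax : ContinuousOn (fun x : E n => Shell.e0 a + ∑ i, a i * x i) (sphere (0 : E n) 1) :=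
    ((Sm.const (Shell.e0 a)).add (Sm.sum _ fun i => (Sm.const (a i)).mul (Sm.coord i))).contOn
  have h7 : SI (fun x => qT T x * (Shell.e0 a + ∑ i, a i * x i)) ≤ SI (wB C l V a B) :=
    SI_mono (hqS.contOn.mul hax) (wB_cont hS hD hTb) fun x hx => hD.bdB T hTA hTb x hx
  have h8 : SI (fun x => qT T x * (Shell.e0 a + ∑ i, a i * x i)) =
      Shell.e0 a * SI (qT T) + ∑ i, a i * SI (fun x => qT T x * x i) := by
    have e1 : ∀ x : E n, qT T x * (Shell.e0 a + ∑ i, a i * x i) =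
        Shell.e0 a * qT T x + ∑ i, a i * (qT T x * x i) := by
      intro x
      rw [mul_add, Finset.mul_sum, mul_comm]
      congr 1
      exact Finset.sum_congr rfl fun i _ => by ring
    simp only [e1]
    have h9 : ∀ i, Sm fun x : E n => qT T x * x i := fun i => hqS.mul (Sm.coord i)
    rw [SI_add ((Sm.const (Shell.e0 a)).mul hqS).contOn
      (Sm.sum _ fun i => (Sm.const (a i)).mul (h9 i)).contOn, SI_cmul]
    congr 1
    unfold SI
    rw [integral_finsetSum]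
    · exact Finset.sum_congr rfl fun i _ => integral_const_mul _ _
    · intro i _
      exact (int_sph (h9 i).contOn).const_mul (a i)
  have h10 := Shell.shell_frame C.toDat T hTA hTb (q := qT T) (fun x _ => rfl) a
  have hc : 0 < 2 * ((n : ℝ) - 1) * om n := by
    have : 0 < (n : ℝ) - 1 := by linarith
    positivity
  rw [← h8, le_div_iff₀ hc] at h10
  set M := 1 / 2 * (SI C.toDat.dt / om n) ^ (((n : ℝ) - 2) / ((n : ℝ) - 1)) with hM
  have h11 : ((n : ℝ) - 1) * om n * (Shell.e0 a * m + ∑ i, a i * P i) ≤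
      1 / 2 * (M * (2 * ((n : ℝ) - 1) * om n)) := by
    have : 0 < ((n : ℝ) - 1) * om n := mul_pos (by linarith) hom
    have h := mul_le_mul_of_nonneg_left heq this.le
    linarith
  have h13 : SI (wB C l V a B) = M * (2 * ((n : ℝ) - 1) * om n) := by linarith
  refine ⟨?_, h13⟩
  exact stokes_zero (D := D) (C := C) hS.dom (F := fun i z => Fa l V f a i z + B i z)
    (fun i y hy => (Fa_smooth hD.toIsGraph hy a i).add (hD.smB i y hy))
    hD.pos hlim
    (by rw [bdr_FaB hS hD, h13]; exact h11)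

/-- The inequality in the frame `(e0 a, a)`. -/
theorem frame_posB [Fact (3 ≤ n)] (hS : IsSliceL C l V f D) (hD : PosB C l V f D a B m P) :
    1 / 2 * (SI C.toDat.dt / om n) ^ (((n : ℝ) - 2) / ((n : ℝ) - 1)) ≤
      Shell.e0 a * m + ∑ i, a i * P i := by
  by_contra hlt
  push Not at hlt
  obtain ⟨T, hTA, hTb, -⟩ := toTen C.toDat
  have h3 := Fact.out (p := 3 ≤ n)
  have hn : (3 : ℝ) ≤ (n : ℝ) := by exact_mod_cast h3
  have hom : 0 < om n := om_pos
  have hst := stokes (D := D) (C := C) hS.dom hS.bdF (F := fun i z => Fa l V f a i z + B i z)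
    (fun i y hy => (Fa_smooth hD.toIsGraph hy a i).add (hD.smB i y hy)) hD.pos hD.lim
  rw [bdr_FaB hS hD] at hst
  obtain ⟨-, h12⟩ := frame_eqB hS hD hTA hTb hlt.le
  rw [h12] at hst
  have hc : 0 < ((n : ℝ) - 1) * om n := mul_pos (by linarith) hom
  have h8 := mul_lt_mul_of_pos_left hlt hc
  linarith

/-- The inequality in the frame of `ξ`. -/
theorem frame_ineqB [Fact (3 ≤ n)] (hS : IsSliceL C l V f D)
    (hD : PosB C l V f D (aa ξ) B m P)
    (h : ∑ i : Fin n, ξ i.succ ^ 2 < ξ 0 ^ 2) (h0 : 0 < ξ 0) :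
    D.Amin ≠ ⊤ ∧ 0 < ξ 0 * m + ∑ i, ξ i.succ * P i ∧
      (D.Amin.toReal / Stmt.omega n) ^ (((n : ℝ) - 2) / ((n : ℝ) - 1)) / 2 ≤
        (ξ 0 * m + ∑ i, ξ i.succ * P i) / NN ξ := by
  obtain ⟨h1, h2, h3⟩ := area_all hS
  have h4 := frame_posB hS hD
  rw [en_aa h h0] at h4
  have hN := NN_pos h
  refine ⟨h1, ?_, h3.trans h4⟩
  have h5 := h2.trans_le h4
  exact (div_pos_iff_of_pos_right hN).1 h5

end Vale.Agent.P366.KSD
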