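import Vale.Agent.P366.H208.S.Eq0
import Vale.Agent.P366.H208.M.Outer
import Vale.Agent.P366.H896.S.BD
import Vale.Agent.P366.H222.K.Fin

/-! The Penrose inequality for data whose metric is the metric of a Kerr-Schild hypersurface. -/

open MeasureTheory Metric Filter Topology Set
open scoped ContDiff ENNReal

noncomputable section
namespace Vale.Agent.P366.KSD

open Vale.Agent.P366 (pd E flux)
open Vale.Agent.P366.H353.N
open Vale.Agent.P366.Kerr (NullCone Psi pt sp sgn ksL ein IsKS IsGraph IsSliceL IsFut dif MixS IsRef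
  IsGradient IsSchwSlice IsOuter)
open Vale.Agent.P366.KSL
open Vale.Agent.P366.SH (Bk)

variable {n : ℕ} {C : NullCone n} {l : Fin (n + 1) → E (n + 1) → ℝ} {V : E (n + 1) → ℝ}
  {f : E n → ℝ} {D₀ D D₁ : Stmt.Exterior n} {ξ : Fin (n + 1) → ℝ} {m : ℝ} {P : Fin n → ℝ}

theorem area_eq (hF : D₀.F = D.F) (hg : D₀.g = D.g) : D₀.area D₀.F = D.area D.F := by
  unfold Stmt.Exterior.area Stmt.Exterior.TestField
  rw [hF, hg]

/-- The Penrose inequality in the frame of `ξ`, and in the rest frame. -/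
theorem ref_main [Fact (3 ≤ n)] (hS : IsSliceL C l V f D₀) (hAF₀ : D₀.IsAF) (hξ : IsFut ξ)
    (hM : MixS l V f ξ D) (hR : IsRef l V f ξ D₀ D) (hAF : D.IsAF) (hT : D.Trapped)
    (hm : D.IsEnergy m) (hP : D.IsMomentum P) (h₁ : IsOuter D D₁) :
    (D₁.Amin ≤ D.area D.F ∧ D.area D.F ≠ ⊤ ∧
      (D₁.Amin.toReal / Stmt.omega n) ^ (((n : ℝ) - 2) / ((n : ℝ) - 1)) / 2 ≤
        ((D.area D.F).toReal / Stmt.omega n) ^ (((n : ℝ) - 2) / ((n : ℝ) - 1)) / 2 ∧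
      ((D.area D.F).toReal / Stmt.omega n) ^ (((n : ℝ) - 2) / ((n : ℝ) - 1)) / 2 ≤
        (ξ 0 * m + ∑ i : Fin n, ξ i.succ * P i) / √(ξ 0 ^ 2 - ∑ i : Fin n, ξ i.succ ^ 2)) ∧
    ((∀ i, ξ 0 * P i = -(ξ i.succ * m)) → √(∑ i, P i ^ 2) < m ∧
      ((D.area D.F).toReal / Stmt.omega n) ^ (((n : ℝ) - 2) / ((n : ℝ) - 1)) / 2 ≤
        √(m ^ 2 - ∑ i, P i ^ 2) ∧
      ∀ lam : E n → ℝ, IsGradient C lam l f D →
        ((D.area D.F).toReal / Stmt.omega n) ^ (((n : ℝ) - 2) / ((n : ℝ) - 1)) / 2 =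
          √(m ^ 2 - ∑ i, P i ^ 2) → ∃ c r₀, IsSchwSlice c r₀ f D) := by
  obtain ⟨h1, h2, -, h4, h5⟩ := area_all' hS
  rw [area_eq hR.dom hR.met] at h1 h2 h4 h5
  have hB := posB_of hS hAF₀ hAF hξ hM hR hm hP (fun T hA hb x hx => SH.bdB_of hξ hS hR hT T hA hb x hx)
  obtain ⟨-, hp, -⟩ := frame_ineqB hS hB hξ.2 hξ.1
  have h6 := frame_posB hS hB
  rw [en_aa hξ.2 hξ.1] at h6
  have h1' : D₁.Amin ≤ D.area D.F := (outer_Amin h₁).trans (amin_le D)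
  have hmono : (D₁.Amin.toReal / Stmt.omega n) ^ (((n : ℝ) - 2) / ((n : ℝ) - 1)) / 2 ≤
        ((D.area D.F).toReal / Stmt.omega n) ^ (((n : ℝ) - 2) / ((n : ℝ) - 1)) / 2 := by
    have h3 : (3 : ℝ) ≤ (n : ℝ) := by exact_mod_cast Fact.out (p := 3 ≤ n)
    have hom : 0 ≤ Stmt.omega n := by
      unfold Stmt.omega Stmt.sphInt Stmt.sph
      exact mul_nonneg (by positivity) (integral_nonneg fun _ => zero_le_one)
    have htop' : D₁.Amin ≠ ⊤ := ne_top_of_le_ne_top h2 h1'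
    have h2' : D₁.Amin.toReal ≤ (D.area D.F).toReal := (ENNReal.toReal_le_toReal htop' h2).2 h1'
    have h4' := Real.rpow_le_rpow (div_nonneg ENNReal.toReal_nonneg hom)
      (div_le_div_of_nonneg_right h2' hom)
      (show 0 ≤ ((n : ℝ) - 2) / ((n : ℝ) - 1) from by
        have h5 : 0 < (n : ℝ) - 1 := by linarith
        exact div_nonneg (by linarith) h5.le)
    linarith
  refine ⟨⟨h1', h2, hmono, h5.trans h6⟩, fun hr => ?_⟩
  obtain ⟨h7, h8⟩ := rest_frame hξ.2 hξ.1 hr hp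
  refine ⟨h7, ?_, fun lam hL heq => ?_⟩
  · rw [h8]
    exact h5.trans h6
  · have hle : √(m ^ 2 - ∑ i, P i ^ 2) ≤
        1 / 2 * (SI C.toDat.dt / om n) ^ (((n : ℝ) - 2) / ((n : ℝ) - 1)) := heq ▸ h5
    exact KSS.schwarz_ref hS hR hL hξ hM hAF hT hm hP hr hle
      (h0_of_frame hS hξ hM hR hB hr hle)

end Vale.Agent.P366.KSD
end
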