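import Vale.Agent.P366.H208.S.Dens
import Vale.Agent.P366.H208.S.Frame
import Vale.Agent.P366.H707.S.Smooth
import Vale.Agent.P366.H353.S.Int
import Vale.Agent.P366.Kerr.DefsK

/-! Positivity of the divergence of the corrected flux field `Fa + B`. -/

open MeasureTheory Metric Filter Topology Set
open scoped ContDiff ENNReal

noncomputable section
namespace Vale.Agent.P366.KSD

open Vale.Agent.P366 (pd E flux)
open Vale.Agent.P366.H353.N
open Vale.Agent.P366.Kerr (NullCone Psi pt sp sgn ksL ein IsKS FutTimelike DECatL IsGraph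
  IsSliceL HasDEC IsFut indG indK tng con lapse resL SharpAt alpha beta lieG inn dif MixS IsRef)
open Vale.Agent.P366.KSN (Y OO mem_OO isOpen_OO Y_cont dts sg)
open Vale.Agent.P366.KSL
open Vale.Agent.P366.SH (Bk dens alp bet)

variable {n : ℕ} {C : NullCone n} {l : Fin (n + 1) → E (n + 1) → ℝ} {V : E (n + 1) → ℝ}
  {f : E n → ℝ} {D₀ D : Stmt.Exterior n} {p : E (n + 1)} {x y : E n} {ξ : Fin (n + 1) → ℝ}

/-- the metric near an interior point -/
theorem g_germ (hS : IsSliceL C l V f D₀) (hm : D₀.g = D.g) (hy : ∀ᶠ z in 𝓝 y, 0 ≤ D₀.F z) :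
    D.g =ᶠ[𝓝 y] indG (ksL l V) f := by
  filter_upwards [hy] with z hz
  rw [← hm]
  funext i j
  exact hS.met z hz i j

/-- The energy density of `ξ` at an interior point. -/
theorem dens_D [Fact (3 ≤ n)] (hS : IsSliceL C l V f D₀) (hξ : IsFut ξ)
    (hM : MixS l V f ξ D) (hF : D₀.F = D.F) (hm : D₀.g = D.g)
    (hy : ∀ᶠ z in 𝓝 y, 0 ≤ D₀.F z) :
    0 < alp (ksL l V) f ξ y ∧ 0 ≤ dens (ksL l V) f D.K ξ y ∧
      (dens (ksL l V) f D.K ξ y = 0 → Stmt.mu D.g D.K y = 0) := by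
  have hy0 := hy.self_of_nhds
  have hg := g_germ hS hm hy
  have hk : D.K =ᶠ[𝓝 y] D.K := Filter.EventuallyEq.rfl
  have hup : ∀ i j, Stmt.up D.g i j y = Stmt.up (indG (ksL l V) f) i j y := fun i j =>
    (up_germ hg i j).self_of_nhds
  have hcr : Stmt.covNorm D.g (resL l f) y = Stmt.covNorm (indG (ksL l V) f) (resL l f) y := by
    unfold Stmt.covNorm
    simp only [hup]
  have hdec := hM.dec y (by rw [← hF]; exact hy0)
  have hmix := hM.mix y (by rw [← hF]; exact F_int hy)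
  rw [mu_germ hg hk]
  rw [covNorm_germ hg hk, mu_germ hg hk] at hdec
  refine dens_pos hS hξ hy hdec ?_
  rcases hmix with h | ⟨hsh, h⟩
  · exact Or.inl h
  · refine Or.inr ⟨?_, h⟩
    unfold SharpAt at hsh
    rw [mu_germ hg hk, covNorm_germ hg hk, hcr] at hsh
    simp only [hup, mom_germ hg hk] at hsh
    exact hsh

theorem lapse_pos (hS : IsSliceL C l V f D₀) (hy : 0 ≤ D₀.F y) : 0 < lapse (ksL l V) f y := by
  have hd : DifferentiableAt ℝ f y := (hS.smf y hy).differentiableAt (by simp)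
  unfold lapse
  rw [up_con (hS.ks y hy) hd]
  exact one_div_pos.2 (Real.sqrt_pos.2 (bb_pos hS hy))

/-- the correction is linear in the vector -/
theorem Bk_div (G : Stmt.Field (n + 1)) (f : E n → ℝ) (k : Stmt.Field n) (ξ : Fin (n + 1) → ℝ)
    (N : ℝ) (i : Fin n) (y : E n) :
    Bk G f k (fun b => ξ b / N) i y = 1 / N * Bk G f k ξ i y := by
  have h1 : ∀ j, bet G f (fun b => ξ b / N) j y = 1 / N * bet G f ξ j y := by
    intro j
    unfold bet GC.ip
    simp only [Finset.mul_sum]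
    exact Finset.sum_congr rfl fun a _ => Finset.sum_congr rfl fun b _ => by ring
  unfold Bk SH.kb
  simp only [h1]
  have h2 : ∀ m, Stmt.up (indG G f) i m y * ∑ j, ∑ l, Stmt.up (indG G f) j l y *
      (k y m j * (1 / N * bet G f ξ l y)) = 1 / N * (Stmt.up (indG G f) i m y *
        ∑ j, ∑ l, Stmt.up (indG G f) j l y * (k y m j * bet G f ξ l y)) := by
    intro m
    simp only [Finset.mul_sum]
    exact Finset.sum_congr rfl fun a _ => Finset.sum_congr rfl fun b _ => by ring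
  simp only [h2, ← Finset.mul_sum]
  ring

/-- the hypotheses on the difference `k` -/
theorem dif_cd (D₀ D : Stmt.Exterior n) (i j : Fin n) :
    Stmt.Smooth fun y => dif D₀ D y i j :=
  ((D.smooth i j).2).sub ((D₀.smooth i j).2)

/-- the divergence of the corrected flux field, in the frame of `ξ` -/
theorem div_FB [Fact (3 ≤ n)] (hS : IsSliceL C l V f D₀) (hξ : IsFut ξ)
    (hM : MixS l V f ξ D) (hR : IsRef l V f ξ D₀ D) (hy : ∀ᶠ z in 𝓝 y, 0 ≤ D₀.F z) :
    ∑ i, pd i (fun z => Fa l V f (aa ξ) i z +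
      Bk (ksL l V) f (dif D₀ D) (xi (aa ξ)) i z) y =
    1 / NN ξ * ((lapse (ksL l V) f y)⁻¹ * (dens (ksL l V) f D.K ξ y +
      (alpha (ksL l V) f ξ y * Stmt.normSq D.g (dif D₀ D) y +
        inn D.g (dif D₀ D) (lieG (ksL l V) f ξ) y) / 2)) := by
  have hy0 := hy.self_of_nhds
  have hsB : ∀ (η : Fin (n + 1) → ℝ) i, ContDiffAt ℝ ∞ (Bk (ksL l V) f (dif D₀ D) η i) y :=
    fun η i => KSS.Bk_cd hS hy0 (fun i j => (dif_cd D₀ D i j).contDiffAt) η i
  rw [← SH.int_eq hS (fun y hy => hM.geo y (by rw [← hR.dom]; exact hy)) hR.met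
    (fun y hy => hR.tr y (by rw [← hR.dom]; exact hy)) hy ξ]
  have e1 : ∀ i, pd i (fun z => Fa l V f (aa ξ) i z +
      Bk (ksL l V) f (dif D₀ D) (xi (aa ξ)) i z) y = pd i (Fa l V f (aa ξ) i) y +
      1 / NN ξ * Stmt.pd i (Bk (ksL l V) f (dif D₀ D) ξ i) y := by
    intro i
    have h1 : DifferentiableAt ℝ (Fa l V f (aa ξ) i) y :=
      (Fa_smooth hS.toIsGraph hy0 (aa ξ) i).differentiableAt (by simp)
    have h2 : DifferentiableAt ℝ (Bk (ksL l V) f (dif D₀ D) ξ i) y :=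
      (hsB ξ i).differentiableAt (by simp)
    have h3 : (fun z => Bk (ksL l V) f (dif D₀ D) (xi (aa ξ)) i z) =
        fun z => 1 / NN ξ * Bk (ksL l V) f (dif D₀ D) ξ i z := by
      funext z
      rw [← Bk_div]
      congr 1
      funext b
      exact xi_aa hξ.2 hξ.1 b
    rw [Vale.Agent.P366.Bridge.pd_eq h2]
    have h4 : (fun z => Fa l V f (aa ξ) i z +
        Bk (ksL l V) f (dif D₀ D) (xi (aa ξ)) i z) = fun z => Fa l V f (aa ξ) i z +
        1 / NN ξ * Bk (ksL l V) f (dif D₀ D) ξ i z := by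
      funext z
      rw [congrFun h3 z]
    rw [h4]
    unfold pd
    rw [fderiv_fun_add h1 (h2.const_mul _), fderiv_const_mul h2]
    rfl
  simp only [e1, Finset.sum_add_distrib]
  rw [sum_pd_Fa hS.toIsGraph hy0, ← Finset.mul_sum]
  have e2 : -∑ b, xi (aa ξ) b * ∑ i, pd i (Zf l V f b i) y =
      1 / NN ξ * (-∑ b, ξ b * ∑ i, pd i (Zf l V f b i) y) := by
    rw [mul_neg, Finset.mul_sum]
    congr 1
    exact Finset.sum_congr rfl fun b _ => by rw [xi_aa hξ.2 hξ.1]; ring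
  rw [e2]
  ring

/-- the divergence is nonnegative at interior points -/
theorem pos_int [Fact (3 ≤ n)] (hS : IsSliceL C l V f D₀) (hξ : IsFut ξ)
    (hM : MixS l V f ξ D) (hR : IsRef l V f ξ D₀ D) (hy : ∀ᶠ z in 𝓝 y, 0 ≤ D₀.F z) :
    0 ≤ ∑ i, pd i (fun z => Fa l V f (aa ξ) i z +
      Bk (ksL l V) f (dif D₀ D) (xi (aa ξ)) i z) y := by
  have hy0 := hy.self_of_nhds
  rw [div_FB hS hξ hM hR hy]
  obtain ⟨-, h2, -⟩ := dens_D hS hξ hM hR.dom hR.met hy
  have h3 : 0 ≤ alpha (ksL l V) f ξ y * Stmt.normSq D.g (dif D₀ D) y +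
      inn D.g (dif D₀ D) (lieG (ksL l V) f ξ) y := by
    rcases hR.int y (by rw [← hR.dom]; exact F_int hy) with h | h
    · simp [Stmt.normSq, inn, h]
    · exact h.le
  have h4 := (lapse_pos hS hy0).le
  have hN := (NN_pos hξ.2).le
  positivity

/-- in the case of equality the difference `k` vanishes at interior points -/
theorem dif_zero [Fact (3 ≤ n)] (hS : IsSliceL C l V f D₀) (hξ : IsFut ξ)
    (hM : MixS l V f ξ D) (hR : IsRef l V f ξ D₀ D) (hy : ∀ᶠ z in 𝓝 y, 0 ≤ D₀.F z)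
    (h0 : ∑ i, pd i (fun z => Fa l V f (aa ξ) i z +
      Bk (ksL l V) f (dif D₀ D) (xi (aa ξ)) i z) y = 0) :
    (∀ i j, D.K y i j = D₀.K y i j) ∧ Stmt.mu D.g D.K y = 0 := by
  have hy0 := hy.self_of_nhds
  rw [div_FB hS hξ hM hR hy] at h0
  obtain ⟨-, h2, h2'⟩ := dens_D hS hξ hM hR.dom hR.met hy
  have h4 := lapse_pos hS hy0
  have hN := NN_pos hξ.2
  have h5 := (mul_eq_zero.1 h0).resolve_left (one_div_pos.2 hN).ne'
  have h6 := (mul_eq_zero.1 h5).resolve_left (inv_pos.2 h4).ne'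
  rcases hR.int y (by rw [← hR.dom]; exact F_int hy) with h | h
  · refine ⟨fun i j => ?_, h2' ?_⟩
    · have := h i j
      unfold dif at this
      linarith
    · have : Stmt.normSq D.g (dif D₀ D) y = 0 ∧
          inn D.g (dif D₀ D) (lieG (ksL l V) f ξ) y = 0 := by
        simp [Stmt.normSq, inn, h]
      rw [this.1, this.2] at h6
      linarith
  · exfalso
    linarith

/-- the corrected flux field in the frame of `ξ`; `hbd` is the condition on the boundary -/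
theorem posB_of [Fact (3 ≤ n)] (hS : IsSliceL C l V f D₀) (hAF₀ : D₀.IsAF) (hAF : D.IsAF)
    (hξ : IsFut ξ) (hM : MixS l V f ξ D) (hR : IsRef l V f ξ D₀ D)
    {m : ℝ} {P : Fin n → ℝ} (hm : D.IsEnergy m) (hP : D.IsMomentum P)
    (hbd : ∀ T : Ten n, T.A = C.toDat.A → T.b = C.toDat.b → ∀ x : E n, ‖x‖ = 1 →
      qT T x * (Shell.e0 (aa ξ) + ∑ i, aa ξ i * x i) ≤
        wB C l V (aa ξ) (fun i => Bk (ksL l V) f (dif D₀ D) (xi (aa ξ)) i) x) :
    PosB C l V f D₀ (aa ξ) (fun i => Bk (ksL l V) f (dif D₀ D) (xi (aa ξ)) i) m P where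
  toIsGraph := hS.toIsGraph
  geob := fun x hx => by
    have hy : 0 ≤ D₀.F (Y C.H x (C.U x)) := mem_Y hS.dom hx le_rfl
    by_cases hV : V (pt (f (Y C.H x (C.U x))) (Y C.H x (C.U x))) = 0
    · exact Or.inl hV
    · exact Or.inr (hM.geo _ (by rw [← hR.dom]; exact hy) hV)
  smB := fun i y hy => KSS.Bk_cd hS hy (fun i j => (dif_cd D₀ D i j).contDiffAt) _ i
  bdB := hbd
  pos := fun y hy => by
    refine ext_cl hS.dom (g := fun y => ∑ i, pd i (fun z => Fa l V f (aa ξ) i z +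
      Bk (ksL l V) f (dif D₀ D) (xi (aa ξ)) i z) y) (fun z hz => ?_)
      (fun z hz => pos_int hS hξ hM hR hz) hy
    refine tendsto_finsetSum _ fun i _ => ?_
    exact (KSN.X5.cd_pd ((Fa_smooth hS.toIsGraph hz (aa ξ) i).add
      (KSS.Bk_cd hS hz (fun i j => (dif_cd D₀ D i j).contDiffAt) _ i)) i).continuousAt
  lim := KSS.flux_shear hS hAF₀ hAF (fun y _ i j => by rw [hR.met])
    (fun y _ i j => by unfold dif; ring)
    (fun y hy => by rw [hR.met]; exact hR.tr y (by rw [← hR.dom]; exact hy))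
    (dif_cd D₀ D) hm hP (aa ξ)

end Vale.Agent.P366.KSD
end
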