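import Vale.Agent.P366.H208.S.Asm
import Vale.Agent.P366.H353.G.Int
import Vale.Agent.P366.H896.G.Far

/-! Positivity of the divergence of the corrected flux field `Fa + B`: arbitrary difference
tensors. -/

open MeasureTheory Metric Filter Topology Set
open scoped ContDiff ENNReal

noncomputable section
namespace Vale.Agent.P366.KSD

open Vale.Agent.P366 (pd E flux)
open Vale.Agent.P366.H353.N
open Vale.Agent.P366.Kerr (NullCone Psi pt sp sgn ksL ein IsKS FutTimelike DECatL IsGraph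
  IsSliceL HasDEC IsFut indG indK tng con lapse resL SharpAt alpha beta lieG inn dif MixS
  difM IsRefG)
open Vale.Agent.P366.KSN (Y OO mem_OO isOpen_OO Y_cont dts sg)
open Vale.Agent.P366.KSL
open Vale.Agent.P366.SH (Bk dens alp bet)

variable {n : ℕ} {C : NullCone n} {l : Fin (n + 1) → E (n + 1) → ℝ} {V : E (n + 1) → ℝ}
  {f : E n → ℝ} {D₀ D : Stmt.Exterior n} {p : E (n + 1)} {x y : E n} {ξ : Fin (n + 1) → ℝ}

/-- smoothness of the tensor `π_k` -/
theorem difM_cd (hy : 0 ≤ D.F y) (i j : Fin n) :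
    ContDiffAt ℝ ∞ (fun y => difM D₀ D y i j) y := by
  have hup : ∀ i j, ContDiffAt ℝ ∞ (Stmt.up D.g i j) y := fun i j =>
    Vale.Agent.P366.Bridge.contDiffAt_inv_entry (A := Stmt.mat D.g)
      (fun a b => ((D.smooth a b).1).contDiffAt) (D.pos y hy).det_pos.ne' i j
  have htr : ContDiffAt ℝ ∞ (Stmt.tr D.g (dif D₀ D)) y :=
    ContDiffAt.sum fun a _ => ContDiffAt.sum fun b _ =>
      (hup a b).mul ((dif_cd D₀ D a b).contDiffAt)
  exact ((dif_cd D₀ D i j).contDiffAt).sub (htr.mul ((D.smooth i j).1.contDiffAt))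

theorem quad_zero (h : ∀ i j, dif D₀ D y i j = 0) : alpha (ksL l V) f ξ y *
    (Stmt.normSq D.g (dif D₀ D) y - Stmt.tr D.g (dif D₀ D) y ^ 2) +
      inn D.g (difM D₀ D) (lieG (ksL l V) f ξ) y = 0 := by
  simp [Stmt.normSq, Stmt.tr, inn, difM, Stmt.momT, h]

/-- the divergence of the corrected flux field, in the frame of `ξ` -/
theorem div_FBG [Fact (3 ≤ n)] (hS : IsSliceL C l V f D₀) (hξ : IsFut ξ)
    (hM : MixS l V f ξ D) (hR : IsRefG l V f ξ D₀ D) (hy : ∀ᶠ z in 𝓝 y, 0 ≤ D₀.F z) :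
    ∑ i, pd i (fun z => Fa l V f (aa ξ) i z +
      Bk (ksL l V) f (difM D₀ D) (xi (aa ξ)) i z) y =
    1 / NN ξ * ((lapse (ksL l V) f y)⁻¹ * (dens (ksL l V) f D.K ξ y +
      (alpha (ksL l V) f ξ y * (Stmt.normSq D.g (dif D₀ D) y - Stmt.tr D.g (dif D₀ D) y ^ 2) +
        inn D.g (difM D₀ D) (lieG (ksL l V) f ξ) y) / 2)) := by
  have hy0 := hy.self_of_nhds
  have hsB : ∀ (η : Fin (n + 1) → ℝ) i, ContDiffAt ℝ ∞ (Bk (ksL l V) f (difM D₀ D) η i) y :=
    fun η i => KSS.Bk_cd hS hy0 (fun i j => difM_cd (by rw [← hR.dom]; exact hy0) i j) η i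
  rw [← SH.int_eqG hS (fun y hy => hM.geo y (by rw [← hR.dom]; exact hy)) hR.met hy ξ]
  have e1 : ∀ i, pd i (fun z => Fa l V f (aa ξ) i z +
      Bk (ksL l V) f (difM D₀ D) (xi (aa ξ)) i z) y = pd i (Fa l V f (aa ξ) i) y +
      1 / NN ξ * Stmt.pd i (Bk (ksL l V) f (difM D₀ D) ξ i) y := by
    intro i
    have h1 : DifferentiableAt ℝ (Fa l V f (aa ξ) i) y :=
      (Fa_smooth hS.toIsGraph hy0 (aa ξ) i).differentiableAt (by simp)
    have h2 : DifferentiableAt ℝ (Bk (ksL l V) f (difM D₀ D) ξ i) y :=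
      (hsB ξ i).differentiableAt (by simp)
    have h3 : (fun z => Bk (ksL l V) f (difM D₀ D) (xi (aa ξ)) i z) =
        fun z => 1 / NN ξ * Bk (ksL l V) f (difM D₀ D) ξ i z := by
      funext z
      rw [← Bk_div]
      congr 1
      funext b
      exact xi_aa hξ.2 hξ.1 b
    rw [Vale.Agent.P366.Bridge.pd_eq h2]
    have h4 : (fun z => Fa l V f (aa ξ) i z +
        Bk (ksL l V) f (difM D₀ D) (xi (aa ξ)) i z) = fun z => Fa l V f (aa ξ) i z +
        1 / NN ξ * Bk (ksL l V) f (difM D₀ D) ξ i z := by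
      funext z
      rw [congrFun h3 z]
    rw [h4]
    unfold pd
    rw [fderiv_fun_add h1 (h2.const_mul _), fderiv_const_mul h2]
    rfl
  simp only [e1, Finset.sum_add_distrib]
  rw [sum_pd_Fa hS.toIsGraph hy0, ← Finset.mul_sum]
  have e2 : -∑ b, xi (aa ξ) b * ∑ i, pd i (Zf l V f b i) y =
      1 / NN ξ * (-∑ b, ξ b * ∑ i, pd i (Zf l V f b i) y) := by
    rw [mul_neg, Finset.mul_sum]
    congr 1
    exact Finset.sum_congr rfl fun b _ => by rw [xi_aa hξ.2 hξ.1]; ring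
  rw [e2]
  ring

/-- the divergence is nonnegative at interior points -/
theorem pos_intG [Fact (3 ≤ n)] (hS : IsSliceL C l V f D₀) (hξ : IsFut ξ)
    (hM : MixS l V f ξ D) (hR : IsRefG l V f ξ D₀ D) (hy : ∀ᶠ z in 𝓝 y, 0 ≤ D₀.F z) :
    0 ≤ ∑ i, pd i (fun z => Fa l V f (aa ξ) i z +
      Bk (ksL l V) f (difM D₀ D) (xi (aa ξ)) i z) y := by
  have hy0 := hy.self_of_nhds
  rw [div_FBG hS hξ hM hR hy]
  obtain ⟨-, h2, -⟩ := dens_D hS hξ hM hR.dom hR.met hy
  have h3 : 0 ≤ alpha (ksL l V) f ξ y *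
      (Stmt.normSq D.g (dif D₀ D) y - Stmt.tr D.g (dif D₀ D) y ^ 2) +
      inn D.g (difM D₀ D) (lieG (ksL l V) f ξ) y := by
    rcases hR.int y (by rw [← hR.dom]; exact F_int hy) with h | h
    · rw [quad_zero h]
    · exact h.le
  have h4 := (lapse_pos hS hy0).le
  have hN := (NN_pos hξ.2).le
  positivity

/-- in the case of equality the difference `k` vanishes at interior points -/
theorem dif_zeroG [Fact (3 ≤ n)] (hS : IsSliceL C l V f D₀) (hξ : IsFut ξ)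
    (hM : MixS l V f ξ D) (hR : IsRefG l V f ξ D₀ D) (hy : ∀ᶠ z in 𝓝 y, 0 ≤ D₀.F z)
    (h0 : ∑ i, pd i (fun z => Fa l V f (aa ξ) i z +
      Bk (ksL l V) f (difM D₀ D) (xi (aa ξ)) i z) y = 0) :
    (∀ i j, D.K y i j = D₀.K y i j) ∧ Stmt.mu D.g D.K y = 0 := by
  have hy0 := hy.self_of_nhds
  rw [div_FBG hS hξ hM hR hy] at h0
  obtain ⟨-, h2, h2'⟩ := dens_D hS hξ hM hR.dom hR.met hy
  have h4 := lapse_pos hS hy0
  have hN := NN_pos hξ.2
  have h5 := (mul_eq_zero.1 h0).resolve_left (one_div_pos.2 hN).ne'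
  have h6 := (mul_eq_zero.1 h5).resolve_left (inv_pos.2 h4).ne'
  rcases hR.int y (by rw [← hR.dom]; exact F_int hy) with h | h
  · refine ⟨fun i j => ?_, h2' ?_⟩
    · have := h i j
      unfold dif at this
      linarith
    · rw [quad_zero h] at h6
      linarith
  · exfalso
    linarith

/-- the corrected flux field in the frame of `ξ`; `hbd` is the condition on the boundary -/
theorem posB_ofG [Fact (3 ≤ n)] (hS : IsSliceL C l V f D₀) (hAF₀ : D₀.IsAF) (hAF : D.IsAF)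
    (hξ : IsFut ξ) (hM : MixS l V f ξ D) (hR : IsRefG l V f ξ D₀ D)
    {m : ℝ} {P : Fin n → ℝ} (hm : D.IsEnergy m) (hP : D.IsMomentum P)
    (hbd : ∀ T : Ten n, T.A = C.toDat.A → T.b = C.toDat.b → ∀ x : E n, ‖x‖ = 1 →
      qT T x * (Shell.e0 (aa ξ) + ∑ i, aa ξ i * x i) ≤
        wB C l V (aa ξ) (fun i => Bk (ksL l V) f (difM D₀ D) (xi (aa ξ)) i) x) :
    PosB C l V f D₀ (aa ξ) (fun i => Bk (ksL l V) f (difM D₀ D) (xi (aa ξ)) i) m P where
  toIsGraph := hS.toIsGraph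
  geob := fun x hx => by
    have hy : 0 ≤ D₀.F (Y C.H x (C.U x)) := mem_Y hS.dom hx le_rfl
    by_cases hV : V (pt (f (Y C.H x (C.U x))) (Y C.H x (C.U x))) = 0
    · exact Or.inl hV
    · exact Or.inr (hM.geo _ (by rw [← hR.dom]; exact hy) hV)
  smB := fun i y hy => KSS.Bk_cd hS hy (fun i j => difM_cd (by rw [← hR.dom]; exact hy) i j) _ i
  bdB := hbd
  pos := fun y hy => by
    refine ext_cl hS.dom (g := fun y => ∑ i, pd i (fun z => Fa l V f (aa ξ) i z +
      Bk (ksL l V) f (difM D₀ D) (xi (aa ξ)) i z) y) (fun z hz => ?_)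
      (fun z hz => pos_intG hS hξ hM hR hz) hy
    refine tendsto_finsetSum _ fun i _ => ?_
    exact (KSN.X5.cd_pd ((Fa_smooth hS.toIsGraph hz (aa ξ) i).add
      (KSS.Bk_cd hS hz (fun i j => difM_cd (by rw [← hR.dom]; exact hz) i j) _ i))
        i).continuousAt
  lim := KSS.flux_shearG hS hAF₀ hAF hR.dom hR.met hm hP (aa ξ)

end Vale.Agent.P366.KSD
end
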