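import Vale.Agent.P366.H896.G.BD

/-! Adding an arbitrary symmetric tensor `k` to the second fundamental form: the boundary
inequality. -/

open MeasureTheory Metric Filter Topology Set
open scoped ContDiff ENNReal

noncomputable section
namespace Vale.Agent.P366.SH

open Vale.Agent.P366 (pd E)
open Vale.Agent.P366.H353.N
open Vale.Agent.P366.H353.N.X3
open Vale.Agent.P366.Kerr (NullCone Psi pt sp sgn indG indK ksL IsKS IsGraph IsSliceL lapse resL tng
  con alpha beta lieG inn dif difM IsRefG IsFut)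
open Vale.Agent.P366.KSN (Y dts sg posU' dts_pos)
open Vale.Agent.P366.KSL (bdr_grad bdr_dF_pos tau_pos_bdr mem_Y dom_iff qT wS xi)
open Vale.Agent.P366.KSD (NN aa)

variable {n : ℕ} {C : NullCone n} {l : Fin (n + 1) → E (n + 1) → ℝ} {V : E (n + 1) → ℝ}
  {f : E n → ℝ} {D D₀ : Stmt.Exterior n} {x y : E n}

/-- The boundary condition `(α + β(ν)) (θ₊ + π_k(ν, ν)) ≤ 2 π_k(ν, β)`. -/
def BdrH (l : Fin (n + 1) → Stmt.E (n + 1) → ℝ) (V : Stmt.E (n + 1) → ℝ)
    (f : Stmt.E n → ℝ) (ξ : Fin (n + 1) → ℝ) (D₀ D : Stmt.Exterior n) : Prop :=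
  ∀ y, D.F y = 0 →
    (alpha (ksL l V) f ξ y + ∑ i, beta (ksL l V) f ξ i y * Stmt.nrm D.g D.F i y) *
      (Stmt.thetaPlus D.g D.K D.F y +
        ∑ i, ∑ j, difM D₀ D y i j * Stmt.nrm D.g D.F i y * Stmt.nrm D.g D.F j y) ≤
    2 * ∑ i, ∑ j, difM D₀ D y i j * Stmt.nrm D.g D.F i y *
      ∑ k, Stmt.up D.g j k y * beta (ksL l V) f ξ k y

/-- the boundary inequality for the vector `ξ` -/
theorem bd_genH [Fact (3 ≤ n)] {ξ : Fin (n + 1) → ℝ} (hS : IsSliceL C l V f D₀)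
    (hF : D₀.F = D.F) (hg : D₀.g = D.g) (hB : BdrH l V f ξ D₀ D) {T : Ten n} (hA : T.A = C.toDat.A)
    (hb : T.b = C.toDat.b) (hx : ‖x‖ = 1) (hax : 0 ≤ ξ 0 + ∑ i : Fin n, x i * ξ i.succ) :
    qT T x * (ξ 0 + ∑ i : Fin n, x i * ξ i.succ) ≤
      wS C l V x * (ξ 0 + ∑ i : Fin n, x i * ξ i.succ) +
        2 * (dts C.H (C.U x) x * ∑ i, Bk (ksL l V) f (difM D₀ D) ξ i (Y C.H x (C.U x)) *
          (x i - C.toDat.b x i)) := by
  have hx0 := ne_zero_of_one hx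
  have h0 := posU' C hx
  obtain ⟨p, k0, hk0p, hk0, hn, pf, pu, pv, pS, hlap, hup, hnrm, hcob⟩ := bdr_pt hS hx
  have hth := KSL.theta_Y hS hA hb hx
  have hd := dts_pos C hx (le_refl (C.U x))
  have hF0 : D₀.F (Y C.H x (C.U x)) = 0 := by
    have h := hS.bdF (C.U x • x) (smul_ne_zero h0.ne' hx0)
      (by rw [KSN.norm_smul_unit hx h0.le, KSN.U_smul C hx0 h0])
    rwa [KSN.Y_eq C hx h0] at h
  have hm := mem_Y hS.dom hx (le_refl (C.U x))
  have hmet := hS.met _ hm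
  rw [← pS] at hth
  generalize Y C.H x (C.U x) = y at *
  have hF0' : D.F y = 0 := by rw [← hF]; exact hF0
  have hbd := hB y hF0'
  have hn' : ∀ i : Fin n, l i.succ (pt (f y) y) = k0 * p.u i := fun i => by rw [hn i, pu i]
  have hflux := Bk_bdr (k := difM D₀ D) (ξ := ξ) (cb := fun i => x i - C.toDat.b x i) hmet hlap hup
    hcob
  have hab := alpha_beta (ξ := ξ) hk0 hn' pf pv hlap
  rw [hg] at hup hnrm hflux
  rw [hF] at hnrm
  -- the expansion
  have h2 : Stmt.thetaPlus D.g D.K D.F y = Stmt.thetaPlus D.g (add D₀.K (dif D₀ D)) D.F y :=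
    thetaPlus_congrK fun i j => by unfold add dif; ring
  rw [h2, thetaPlus_add, trS_momT (D.pos y hF0'.ge) (D.dom.2.1 y hF0')] at hbd
  have hdm : Stmt.momT D.g (dif D₀ D) = difM D₀ D := rfl
  rw [hdm] at hbd
  rw [hg, hF, hlap] at hth
  simp only [hnrm] at hbd
  simp only [pu] at hab
  rw [hab] at hbd
  rw [hflux]
  generalize (∑ i, ∑ j, difM D₀ D y i j * p.N i * p.N j) = kν at *
  generalize (∑ i, ∑ j, difM D₀ D y i j * p.N i *
    ∑ m, Stmt.up D.g j m y * beta (ksL l V) f ξ m y) = kb at *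
  generalize Stmt.thetaPlus D.g D₀.K D.F y = θ at *
  generalize (ξ 0 + ∑ i : Fin n, x i * ξ i.succ) = ax at *
  generalize dts C.H (C.U x) x = d at *
  have hs0 := p.s0
  have hS0 := p.S0
  have hkey : (qT T x - wS C l V x) * ax = d * (p.s / p.S * ax) * θ := by
    have : qT T x - wS C l V x = p.s / p.S * (θ * d) := by
      rw [hth]; field_simp
    rw [this]; ring
  have h4 : d * (p.s / p.S * ax) * θ ≤ d * (2 * kb) := by
    rw [mul_assoc]
    refine mul_le_mul_of_nonneg_left ?_ hd.le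
    have e : θ + -kν + kν = θ := by ring
    rwa [e] at hbd
  nlinarith

/-- the field `bdB` of `PosB` for the frame of `ξ` -/
theorem bdB_ofH [Fact (3 ≤ n)] {ξ : Fin (n + 1) → ℝ} (hξ : IsFut ξ) (hS : IsSliceL C l V f D₀)
    (hF : D₀.F = D.F) (hg : D₀.g = D.g) (hB : BdrH l V f ξ D₀ D) (T : Ten n) (hA : T.A = C.toDat.A)
    (hb : T.b = C.toDat.b) (x : E n) (hx : ‖x‖ = 1) :
    qT T x * (Shell.e0 (aa ξ) + ∑ i, aa ξ i * x i) ≤
      KSD.wB C l V (aa ξ) (fun i => Bk (ksL l V) f (difM D₀ D) (xi (aa ξ)) i) x := by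
  have hN := KSD.NN_pos hξ.2
  have h1 : ξ = fun b => NN ξ * xi (aa ξ) b := funext fun b => by
    rw [KSD.xi_aa hξ.2 hξ.1]; field_simp
  have hax : ξ 0 + ∑ i : Fin n, x i * ξ i.succ =
      NN ξ * (Shell.e0 (aa ξ) + ∑ i, aa ξ i * x i) := by
    rw [mul_add, Finset.mul_sum, KSD.e0_aa hξ.2 hξ.1]
    congr 1
    · field_simp
    · exact Finset.sum_congr rfl fun i _ => by unfold KSD.aa; field_simp
  have hp := KSL.ax_pos (aa ξ) hx
  have h := bd_genH hS hF hg hB hA hb hx (by rw [hax]; exact (mul_pos hN hp).le)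
  rw [hax] at h
  have hB : ∀ i, Bk (ksL l V) f (difM D₀ D) ξ i (Y C.H x (C.U x)) =
      NN ξ * Bk (ksL l V) f (difM D₀ D) (xi (aa ξ)) i (Y C.H x (C.U x)) := fun i => by
    rw [← Bk_mul, ← h1]
  have hsum : ∑ i, Bk (ksL l V) f (difM D₀ D) ξ i (Y C.H x (C.U x)) * (x i - C.toDat.b x i) =
      NN ξ * ∑ i, Bk (ksL l V) f (difM D₀ D) (xi (aa ξ)) i (Y C.H x (C.U x)) *
        (x i - C.toDat.b x i) := by
    rw [Finset.mul_sum]
    exact Finset.sum_congr rfl fun i _ => by rw [hB]; ring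
  rw [hsum] at h
  unfold KSD.wB
  refine le_of_mul_le_mul_left ?_ hN
  linarith

end Vale.Agent.P366.SH
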