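import Vale.Agent.P366.H208.M.Strong
import Vale.Agent.P366.H353.S.Defs

/-! The energy density of the constant vector `ξ` for data with the induced metric and an arbitrary
second fundamental form. -/

open MeasureTheory Metric Filter Topology Set
open scoped ContDiff ENNReal

noncomputable section
namespace Vale.Agent.P366.KSD

open Vale.Agent.P366 (pd E flux)
open Vale.Agent.P366.H353.N
open Vale.Agent.P366.Kerr (NullCone Psi pt sp sgn ksL ein IsKS FutTimelike DECatL IsGraph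
  IsSliceL HasDEC IsFut indG indK tng con lapse resL SharpAt)
open Vale.Agent.P366.KSN (Y OO mem_OO isOpen_OO Y_cont dts sg)
open Vale.Agent.P366.KSL
open Vale.Agent.P366.GC (Sl Met Nv Tv)
open Vale.Agent.P366.H353.DA (psd_cs frame_contr low_N)
open Vale.Agent.P366.SH (alp bet)

variable {n : ℕ} {C : NullCone n} {l : Fin (n + 1) → E (n + 1) → ℝ} {V : E (n + 1) → ℝ}
  {f : E n → ℝ} {D : Stmt.Exterior n} {p : E (n + 1)} {x y : E n} {ξ : Fin (n + 1) → ℝ}
  {K : Stmt.Field n}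

/-! ### algebra -/

/-- the dominant energy condition and a timelike vector -/
theorem dec_data {hi : Matrix (Fin n) (Fin n) ℝ} (hp : hi.PosSemidef) {J ζ : Fin n → ℝ}
    {μ x₀ : ℝ} (hx : 0 ≤ x₀) (hZ : ∑ k, ∑ l, hi k l * ζ k * ζ l < x₀ ^ 2) (hμ : 0 ≤ μ)
    (hJ : ∑ k, ∑ l, hi k l * J k * J l ≤ μ ^ 2) :
    0 ≤ x₀ * μ + ∑ k, ∑ l, hi k l * J k * ζ l ∧
      (x₀ * μ + ∑ k, ∑ l, hi k l * J k * ζ l = 0 → μ = 0) := by
  have h1 := psd_cs hp J ζ
  set Q := ∑ k, ∑ l, hi k l * J k * ζ l with hQ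
  set ZZ := ∑ k, ∑ l, hi k l * ζ k * ζ l with hZZ
  set JJ := ∑ k, ∑ l, hi k l * J k * J l with hJJ
  have hZ0 : 0 ≤ ZZ := by
    have hq : ∀ w : Fin n → ℝ, 0 ≤ ∑ i, ∑ j, hi i j * w i * w j := by
      intro w
      have h1 := hp.dotProduct_mulVec_nonneg w
      have e1 : star w ⬝ᵥ hi.mulVec w = ∑ i, ∑ j, hi i j * w i * w j := by
        simp only [dotProduct, Matrix.mulVec, star_trivial, Finset.mul_sum]
        exact Finset.sum_congr rfl fun i _ => Finset.sum_congr rfl fun j _ => by ring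
      rw [← e1]
      exact h1
    exact hq ζ
  have h2 : Q ^ 2 ≤ μ ^ 2 * ZZ := h1.trans (mul_le_mul_of_nonneg_right hJ hZ0)
  have h3 : μ ^ 2 * ZZ ≤ μ ^ 2 * x₀ ^ 2 := mul_le_mul_of_nonneg_left hZ.le (sq_nonneg _)
  have h4 : Q ^ 2 ≤ (x₀ * μ) ^ 2 := by rw [mul_pow]; linarith
  have h5 := abs_le_of_sq_le_sq' h4 (mul_nonneg hx hμ)
  refine ⟨by linarith [h5.1], fun h0 => ?_⟩
  have h6 : Q = -(x₀ * μ) := by linarith
  rw [h6] at h2
  have h7 : μ ^ 2 * (x₀ ^ 2 - ZZ) ≤ 0 := by nlinarith [h2]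
  have h8 : μ ^ 2 = 0 := by
    have h9 : 0 < x₀ ^ 2 - ZZ := by linarith
    by_contra hne
    have h10 : 0 < μ ^ 2 := lt_of_le_of_ne (sq_nonneg _) (Ne.symm hne)
    have := mul_pos h10 h9
    linarith
  exact pow_eq_zero_iff (two_ne_zero) |>.1 h8

/-- the sharpened dominant energy condition -/
theorem strong_data {hi : Matrix (Fin n) (Fin n) ℝ} (hp : hi.PosSemidef) {J s ζ : Fin n → ℝ}
    {μ c V δ x₀ : ℝ} (hc : 0 < c) (hss : ∑ k, ∑ l, hi k l * s k * s l = c ^ 2)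
    (hLξ : 0 < ∑ k, ∑ l, hi k l * s k * ζ l + c * x₀)
    (hGξ : ∑ k, ∑ l, hi k l * ζ k * ζ l - x₀ ^ 2 ≤
      -δ + V * (∑ k, ∑ l, hi k l * s k * ζ l + c * x₀) ^ 2) (hδ : 0 < δ)
    (hV : V * c ^ 2 ≤ 1) (hμ : 0 ≤ μ) (hJ : ∑ k, ∑ l, hi k l * J k * J l ≤ μ ^ 2)
    (hS : (μ - (∑ k, ∑ l, hi k l * J k * s l) / c) ^ 2 + ∑ k, ∑ l, hi k l * J k * J l ≤ μ ^ 2) :
    0 < x₀ ∧ 0 ≤ x₀ * μ + ∑ k, ∑ l, hi k l * J k * ζ l ∧
      (x₀ * μ + ∑ k, ∑ l, hi k l * J k * ζ l = 0 → μ = 0) := by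
  obtain ⟨q1, q2, q3⟩ := cs_orth hp (J := J) (ζ := ζ) hc hss
  set JJ := ∑ k, ∑ l, hi k l * J k * J l with hJJ
  set ZZ := ∑ k, ∑ l, hi k l * ζ k * ζ l with hZZ
  set A := ∑ k, ∑ l, hi k l * J k * s l with hA
  set B := ∑ k, ∑ l, hi k l * s k * ζ l with hB
  set Q := ∑ k, ∑ l, hi k l * J k * ζ l with hQ
  obtain ⟨u, hu⟩ : ∃ u, u = x₀ + B / c := ⟨_, rfl⟩
  have hcu : c * u = B + c * x₀ := by rw [hu]; field_simp; ring
  have hu0 : 0 < u := by
    rw [← hcu] at hLξ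
    exact (pos_iff_pos_of_mul_pos hLξ).1 hc
  have hxu : -B / c = x₀ - u := by rw [hu]; ring
  have hZ : ZZ - (-B / c) ^ 2 ≤ 2 * x₀ * u - δ := by
    rw [← hcu] at hGξ
    have h2 : V * (c * u) ^ 2 ≤ u ^ 2 := by
      have h3 : V * (c * u) ^ 2 = (V * c ^ 2) * u ^ 2 := by ring
      rw [h3]
      have := mul_le_mul_of_nonneg_right hV (sq_nonneg u)
      linarith only [this]
    have h4 : (x₀ - u) ^ 2 = x₀ ^ 2 - 2 * x₀ * u + u ^ 2 := by ring
    rw [hxu, h4]
    linarith only [h2, hGξ]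
  have hx0 : 0 < x₀ := by
    have h1 : 0 < 2 * x₀ * u := by linarith only [hZ, q2, hδ]
    by_contra hneg
    have h2 : x₀ * u ≤ 0 := mul_nonpos_of_nonpos_of_nonneg (not_lt.1 hneg) hu0.le
    linarith only [h1, h2]
  have hSh : (μ + -A / c) ^ 2 + JJ ≤ μ ^ 2 := by
    have e1 : μ + -A / c = μ - A / c := by ring
    rw [e1]
    exact hS
  have hfin := strong_real (p := Q - (-A / c) * (-B / c)) hu0 hx0.le hδ.le q2 hZ q1 hμ hJ hSh q3
  have hsum : x₀ * μ + (-A / c * (x₀ - u) + (Q - (-A / c) * (-B / c))) = x₀ * μ + Q := by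
    rw [hxu]; ring
  rw [hsum] at hfin
  exact ⟨hx0, hfin.1, hfin.2 hδ⟩

/-! ### the slice -/

/-- The equations of Gauss and Codazzi apply at an interior point. -/
theorem slice_aux [Fact (3 ≤ n)] (hS : IsSliceL C l V f D) (hy : ∀ᶠ z in 𝓝 y, 0 ≤ D.F z) :
    ∃ (U : Set (E (n + 1))) (W : Set (E n)) (N : ℝ), y ∈ W ∧ Sl (ksL l V) f U W ∧
      (Stmt.mat (indG (ksL l V) f) y).PosDef ∧ 0 < N ∧ N ^ 2 * bb l V f y = 1 ∧
      (∀ a, Nv (ksL l V) f a y = N * (-Nn l V f y a)) ∧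
      ∀ X : Fin (n + 1) → ℝ, ∑ a, ∑ b, ksL l V (pt (f y) y) a b * X a * X b ≤ 0 →
        0 < ∑ a, l a (pt (f y) y) * X a →
        ∑ a, ∑ b, ksL l V (pt (f y) y) a b * Nv (ksL l V) f a y * X b ≤ 0 := by
  have hy0 := hy.self_of_nhds
  have hK := hS.ks y hy0
  have hd : DifferentiableAt ℝ f y := (hS.smf y hy0).differentiableAt (by simp)
  have hn := hK.null.self_of_nhds
  obtain ⟨U, W, hyW, hSl⟩ := sl_near hS hy
  have hpd : (Stmt.mat (indG (ksL l V) f) y).PosDef := by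
    have h1 := D.pos y hy0
    have h2 : Stmt.mat D.g y = Stmt.mat (indG (ksL l V) f) y := by
      ext i j
      exact hS.met y hy0 i j
    rwa [h2] at h1
  -- the lapse
  have hb := bb_pos hS hy0
  have hlap : 0 < lapse (ksL l V) f y := by
    unfold lapse
    rw [up_con hK hd]
    exact one_div_pos.2 (Real.sqrt_pos.2 hb)
  have hlap2 : lapse (ksL l V) f y ^ 2 * bb l V f y = 1 := by
    unfold lapse
    rw [up_con hK hd, div_pow, Real.sq_sqrt hb.le]
    field_simp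
  set N := lapse (ksL l V) f y with hN
  have hNv : ∀ a, Nv (ksL l V) f a y = N * (-Nn l V f y a) := by
    intro a
    unfold Nv Nn
    have h2 : ∑ b, Stmt.up (ksL l V) a b (pt (f y) y) * con f y b =
        ∑ b, con f y b * Stmt.up (ksL l V) b a (pt (f y) y) := by
      refine Finset.sum_congr rfl fun b _ => ?_
      rw [hSl.met.up_symm (hSl.map y hyW) a b]
      ring
    rw [h2]
    ring
  -- the covector `dt - df`
  have hcon : ∀ b, ∑ a, ksL l V (pt (f y) y) a b * Nn l V f y a = con f y b := by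
    intro b
    unfold Nn
    simp only [Finset.mul_sum]
    rw [Finset.sum_comm]
    have e1 : ∀ c, ∑ a, ksL l V (pt (f y) y) a b *
        (con f y c * Stmt.up (ksL l V) c a (pt (f y) y)) =
        con f y c * (if c = b then 1 else 0) := by
      intro c
      rw [← hSl.met.up_g (hSl.map y hyW) c b, Finset.mul_sum]
      exact Finset.sum_congr rfl fun a _ => by ring
    simp only [e1]
    simp
  refine ⟨U, W, N, hyW, hSl, hpd, hlap, hlap2, hNv, fun X hX hl => ?_⟩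
  have hform : ∑ a, ∑ b, ksL l V (pt (f y) y) a b * Nv (ksL l V) f a y * X b =
      -(N * (X 0 - ∑ i : Fin n, pd i f y * X i.succ)) := by
    simp only [hNv]
    rw [Finset.sum_comm]
    have e1 : ∀ b, ∑ a, ksL l V (pt (f y) y) a b * (N * -Nn l V f y a) * X b =
        -(N * (con f y b * X b)) := by
      intro b
      rw [← hcon b, Finset.sum_mul, Finset.mul_sum, ← Finset.sum_neg_distrib]
      exact Finset.sum_congr rfl fun a _ => by ring
    simp only [e1, Finset.sum_neg_distrib, ← Finset.mul_sum]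
    rw [Fin.sum_univ_succ, con_zero]
    simp only [con_succ hd, neg_mul, Finset.sum_neg_distrib]
    ring
  rw [form_ksL] at hX
  have hc := con_pos (L := fun a => l a (pt (f y) y)) (v := V (pt (f y) y)) (X := X)
    (u := fun i => pd i f y) (null_at hK) hK.fut (lap2_pos hS hy0) (tau_pos hS y hy0) (by
      have e : ∑ i : Fin n, X i.succ ^ 2 = ∑ i : Fin n, X i.succ * X i.succ :=
        Finset.sum_congr rfl fun i _ => sq _
      rw [e]
      linarith) hl
  rw [hform]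
  have := mul_pos hlap hc
  linarith


theorem alp_eq (f : E n → ℝ) (y : E n) (ξ : Fin (n + 1) → ℝ) : alp (ksL l V) f ξ y =
    -∑ a, (∑ b, ksL l V (pt (f y) y) a b * ξ b) * Nv (ksL l V) f a y := by
  unfold alp GC.ip
  congr 1
  rw [Finset.sum_comm]
  refine Finset.sum_congr rfl fun a _ => ?_
  rw [Finset.sum_mul]
  exact Finset.sum_congr rfl fun b _ => by rw [ksL_symm l V (pt (f y) y) a b]

theorem bet_eq (f : E n → ℝ) (y : E n) (ξ : Fin (n + 1) → ℝ) (k : Fin n) :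
    bet (ksL l V) f ξ k y =
      ∑ a, (∑ b, ksL l V (pt (f y) y) a b * ξ b) * Tv f k a y := by
  unfold bet GC.ip
  rw [Finset.sum_comm]
  refine Finset.sum_congr rfl fun a _ => ?_
  rw [Finset.sum_mul]
  exact Finset.sum_congr rfl fun b _ => by rw [ksL_symm l V (pt (f y) y) a b]

/-- The energy density of `ξ` is nonnegative: the metric is the induced one, `K` is arbitrary. -/
theorem dens_pos [Fact (3 ≤ n)] (hS : IsSliceL C l V f D) (hξ : IsFut ξ)
    (hy : ∀ᶠ z in 𝓝 y, 0 ≤ D.F z)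
    (hdec : Stmt.covNorm (indG (ksL l V) f) (Stmt.mom (indG (ksL l V) f) K) y ≤
      Stmt.mu (indG (ksL l V) f) K y)
    (hm : V (pt (f y) y) * (∑ a, l a (pt (f y) y) * ξ a) ^ 2 <
        ξ 0 ^ 2 - ∑ i : Fin n, ξ i.succ ^ 2 ∨
      ((Stmt.mu (indG (ksL l V) f) K y -
        (∑ i, ∑ j, Stmt.up (indG (ksL l V) f) i j y * Stmt.mom (indG (ksL l V) f) K i y *
          resL l f j y) / Stmt.covNorm (indG (ksL l V) f) (resL l f) y) ^ 2 +
        Stmt.covNorm (indG (ksL l V) f) (Stmt.mom (indG (ksL l V) f) K) y ^ 2 ≤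
        Stmt.mu (indG (ksL l V) f) K y ^ 2 ∧ ∑ i, Stmt.pd i f y ^ 2 ≤ 1)) :
    0 < alp (ksL l V) f ξ y ∧ 0 ≤ SH.dens (ksL l V) f K ξ y ∧
      (SH.dens (ksL l V) f K ξ y = 0 → Stmt.mu (indG (ksL l V) f) K y = 0) := by
  have hy0 := hy.self_of_nhds
  have hK := hS.ks y hy0
  have hd : DifferentiableAt ℝ f y := (hS.smf y hy0).differentiableAt (by simp)
  have hn := hK.null.self_of_nhds
  obtain ⟨U, W, N, hyW, hSl, hpd, hN, hN2, hNv, hcau⟩ := slice_aux hS hy
  have hMp : ((Stmt.mat (indG (ksL l V) f) y)⁻¹).PosSemidef := hpd.inv.posSemidef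
  have hG : ∀ a b, ∑ d, Stmt.up (ksL l V) a d (pt (f y) y) * ksL l V (pt (f y) y) d b =
      if a = b then 1 else 0 := fun a b => hSl.met.up_g (hSl.map y hyW) a b
  have hG' : ∀ a b, ∑ d, ksL l V (pt (f y) y) a d * Stmt.up (ksL l V) d b (pt (f y) y) =
      if a = b then 1 else 0 := fun a b => hSl.met.g_up (hSl.map y hyW) a b
  have hGi : ∀ a b, Stmt.up (ksL l V) a b (pt (f y) y) =
      ∑ k, ∑ l', (Stmt.mat (indG (ksL l V) f) y)⁻¹ k l' * Tv f k a y * Tv f l' b y -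
        Nv (ksL l V) f a y * Nv (ksL l V) f b y := fun a b => GC.up_dec hSl hyW a b
  have hcontr : ∀ v : Fin (n + 1) → ℝ, ∑ a, v a * ξ a =
      ∑ k, ∑ l', (Stmt.mat (indG (ksL l V) f) y)⁻¹ k l' * (∑ a, v a * Tv f k a y) *
        bet (ksL l V) f ξ l' y + (∑ a, v a * Nv (ksL l V) f a y) * alp (ksL l V) f ξ y := by
    intro v
    have f1 := frame_contr (G := fun a b => ksL l V (pt (f y) y) a b)
      (Gi := fun a b => Stmt.up (ksL l V) a b (pt (f y) y))
      (T := fun k a => Tv f k a y) (N := fun a => Nv (ksL l V) f a y)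
      (hi := (Stmt.mat (indG (ksL l V) f) y)⁻¹) hG hGi v ξ
    rw [f1, alp_eq]
    simp only [bet_eq]
    ring
  have hGξ : ∑ a, ∑ b, ksL l V (pt (f y) y) a b * ξ a * ξ b =
      ∑ k, ∑ l', (Stmt.mat (indG (ksL l V) f) y)⁻¹ k l' * bet (ksL l V) f ξ k y *
        bet (ksL l V) f ξ l' y - alp (ksL l V) f ξ y ^ 2 := by
    have h1 := hcontr fun a => ∑ b, ksL l V (pt (f y) y) a b * ξ b
    rw [low_N, h1]
    simp only [← bet_eq]
    have h2 : ∑ a, (∑ b, ksL l V (pt (f y) y) a b * ξ b) * Nv (ksL l V) f a y =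
        -alp (ksL l V) f ξ y := by rw [alp_eq]; ring
    rw [h2]; ring
  have hGξ' : ∑ a, ∑ b, ksL l V (pt (f y) y) a b * ξ a * ξ b =
      -(ξ 0 ^ 2 - ∑ i : Fin n, ξ i.succ ^ 2) +
        V (pt (f y) y) * (∑ a, l a (pt (f y) y) * ξ a) ^ 2 := by
    rw [form_ksL]
    have e : ∑ i : Fin n, ξ i.succ * ξ i.succ = ∑ i : Fin n, ξ i.succ ^ 2 :=
      Finset.sum_congr rfl fun i _ => (sq _).symm
    rw [e]; ring
  have hlpos := l_fut hK hξ
  -- the norm of `J`
  have hJn : ∀ w : Fin n → ℝ, 0 ≤ ∑ i, ∑ j, (Stmt.mat (indG (ksL l V) f) y)⁻¹ i j * w i * w j := by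
    intro w
    have h1 := hMp.dotProduct_mulVec_nonneg w
    have e1 : star w ⬝ᵥ ((Stmt.mat (indG (ksL l V) f) y)⁻¹).mulVec w =
        ∑ i, ∑ j, (Stmt.mat (indG (ksL l V) f) y)⁻¹ i j * w i * w j := by
      simp only [dotProduct, Matrix.mulVec, star_trivial, Finset.mul_sum]
      exact Finset.sum_congr rfl fun i _ => Finset.sum_congr rfl fun j _ => by ring
    rw [← e1]
    exact h1
  have hμ0 : 0 ≤ Stmt.mu (indG (ksL l V) f) K y := (Real.sqrt_nonneg _).trans hdec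
  have hJμ := (Real.sqrt_le_left hμ0).1 hdec
  have hdens : SH.dens (ksL l V) f K ξ y = alp (ksL l V) f ξ y * Stmt.mu (indG (ksL l V) f) K y +
      ∑ k, ∑ l', (Stmt.mat (indG (ksL l V) f) y)⁻¹ k l' *
        Stmt.mom (indG (ksL l V) f) K k y * bet (ksL l V) f ξ l' y := by
    unfold SH.dens
    congr 1
    exact Finset.sum_congr rfl fun i _ => Finset.sum_congr rfl fun j _ => by
      unfold Stmt.up; ring
  rw [hdens]
  rcases hm with hm | ⟨hsh, hlen⟩
  · -- `ξ` is timelike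
    have h1 : ∑ a, ∑ b, ksL l V (pt (f y) y) a b * ξ a * ξ b < 0 := by
      rw [hGξ']; linarith
    have h2 := hcau ξ h1.le hlpos
    have h3 : 0 ≤ alp (ksL l V) f ξ y := by
      rw [low_N] at h2
      rw [alp_eq]; linarith
    have h4 : ∑ k, ∑ l', (Stmt.mat (indG (ksL l V) f) y)⁻¹ k l' * bet (ksL l V) f ξ k y *
        bet (ksL l V) f ξ l' y < alp (ksL l V) f ξ y ^ 2 := by
      rw [hGξ] at h1; linarith
    have h5 : 0 < alp (ksL l V) f ξ y := by
      rcases h3.eq_or_lt with h | h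
      · rw [← h] at h4
        have := hJn fun k => bet (ksL l V) f ξ k y
        have e0 : (0 : ℝ) ^ 2 = 0 := by norm_num
        rw [e0] at h4
        linarith
      · exact h
    exact ⟨h5, dec_data hMp h3 h4 hμ0 hJμ⟩
  · -- the sharpened condition
    have hτ0 := tau_pos hS y hy0
    have hcτ : ∑ a, l a (pt (f y) y) * Nv (ksL l V) f a y = N * (l 0 (pt (f y) y) +
        ∑ i : Fin n, l i.succ (pt (f y) y) * pd i f y) := by
      rw [← tau_eq (V := V) hd hn, Finset.mul_sum]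
      exact Finset.sum_congr rfl fun a _ => by rw [hNv]; ring
    have hc0 : 0 < ∑ a, l a (pt (f y) y) * Nv (ksL l V) f a y := by
      rw [hcτ]; exact mul_pos hN hτ0
    have hss := null_frame (L := fun a => l a (pt (f y) y)) hG hG' hGi (up_ll hn)
    have hsn : Stmt.covNorm (indG (ksL l V) f) (resL l f) y =
        ∑ a, l a (pt (f y) y) * Nv (ksL l V) f a y := by
      have e1 : Stmt.covNorm (indG (ksL l V) f) (resL l f) y =
          √(∑ k, ∑ l', (Stmt.mat (indG (ksL l V) f) y)⁻¹ k l' *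
            (∑ a, l a (pt (f y) y) * Tv f k a y) * (∑ a, l a (pt (f y) y) * Tv f l' a y)) := rfl
      rw [e1, hss, Real.sqrt_sq hc0.le]
    have hJ2 : Stmt.covNorm (indG (ksL l V) f) (Stmt.mom (indG (ksL l V) f) K) y ^ 2 =
        ∑ k, ∑ l', (Stmt.mat (indG (ksL l V) f) y)⁻¹ k l' *
        Stmt.mom (indG (ksL l V) f) K k y * Stmt.mom (indG (ksL l V) f) K l' y :=
      Real.sq_sqrt (hJn fun k => Stmt.mom (indG (ksL l V) f) K k y)
    rw [hsn, hJ2] at hsh
    have hlξ := hcontr fun a => l a (pt (f y) y)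
    rw [hGξ, hlξ] at hGξ'
    rw [hlξ] at hlpos
    exact strong_data (V := V (pt (f y) y)) (δ := ξ 0 ^ 2 - ∑ i : Fin n, ξ i.succ ^ 2)
      (s := fun j => resL l f j y) hMp hc0 hss hlpos (le_of_eq hGξ')
      (by have := hξ.2; linarith) (by rw [hcτ]; exact V_lapse hK hd hlen hN2) hμ0 hJμ hsh

end Vale.Agent.P366.KSD
end
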