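import Vale.Agent.P366.H208.S.Asm
import Vale.Agent.P366.H707.S.Eq

/-! The case of equality for data which differ from the data of the slice by a trace-free tensor. -/

open MeasureTheory Metric Filter Topology Set
open scoped ContDiff ENNReal

noncomputable section
namespace Vale.Agent.P366.KSD

open Vale.Agent.P366 (pd E flux)
open Vale.Agent.P366.H353.N
open Vale.Agent.P366.Kerr (NullCone Psi pt sp sgn ksL ein IsKS IsGraph IsSliceL IsFut dif MixS IsRef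
  IsGradient IsSchwSlice)
open Vale.Agent.P366.KSL
open Vale.Agent.P366.SH (Bk)

variable {n : ℕ} {C : NullCone n} {l : Fin (n + 1) → E (n + 1) → ℝ} {V : E (n + 1) → ℝ}
  {f : E n → ℝ} {D₀ D : Stmt.Exterior n} {ξ : Fin (n + 1) → ℝ} {m : ℝ} {P : Fin n → ℝ}

/-- In the case of equality the difference of the second fundamental forms vanishes. -/
theorem h0_of_frame [Fact (3 ≤ n)] (hS : IsSliceL C l V f D₀) (hξ : IsFut ξ)
    (hM : MixS l V f ξ D) (hR : IsRef l V f ξ D₀ D)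
    (hB : PosB C l V f D₀ (aa ξ) (fun i => Bk (ksL l V) f (dif D₀ D) (xi (aa ξ)) i) m P)
    (hr : ∀ i, ξ 0 * P i = - (ξ i.succ * m))
    (hle : √(m ^ 2 - ∑ i, P i ^ 2) ≤
      1 / 2 * (SI C.toDat.dt / om n) ^ (((n : ℝ) - 2) / ((n : ℝ) - 1))) :
    ∀ y, 0 < D.F y → ∀ i j, dif D₀ D y i j = 0 := by
  intro y hy i j
  obtain ⟨T, hTA, hTb, -⟩ := toTen C.toDat
  obtain ⟨-, hp, -⟩ := frame_ineqB hS hB hξ.2 hξ.1
  obtain ⟨-, h8⟩ := rest_frame hξ.2 hξ.1 hr hp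
  have heq : Shell.e0 (aa ξ) * m + ∑ i, aa ξ i * P i ≤
      1 / 2 * (SI C.toDat.dt / om n) ^ (((n : ℝ) - 2) / ((n : ℝ) - 1)) := by
    rw [en_aa hξ.2 hξ.1, ← h8]
    exact hle
  obtain ⟨h1, -⟩ := frame_eqB hS hB hTA hTb heq
  have hev : ∀ᶠ z in 𝓝 y, 0 ≤ D₀.F z := by
    rw [hR.dom]
    exact KSS.near_pos hy
  have h2 := (dif_zero hS hξ hM hR hev (h1 y hev.self_of_nhds)).1 i j
  unfold dif
  rw [h2, sub_self]

end Vale.Agent.P366.KSD
end
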