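import Vale.Agent.P366.H208.S.AsmG
import Vale.Agent.P366.H208.S.Main
import Vale.Agent.P366.H896.G.BD

/-! The Penrose inequality for data whose metric is the metric of a Kerr-Schild hypersurface;
arbitrary difference tensors. -/

open MeasureTheory Metric Filter Topology Set
open scoped ContDiff ENNReal

noncomputable section
namespace Vale.Agent.P366.KSD

open Vale.Agent.P366 (pd E flux)
open Vale.Agent.P366.H353.N
open Vale.Agent.P366.Kerr (NullCone Psi pt sp sgn ksL ein IsKS IsGraph IsSliceL IsFut dif MixS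
  IsGradient IsSchwSlice IsOuter difM IsRefG)
open Vale.Agent.P366.KSL
open Vale.Agent.P366.SH (Bk)

variable {n : ℕ} {C : NullCone n} {l : Fin (n + 1) → E (n + 1) → ℝ} {V : E (n + 1) → ℝ}
  {f : E n → ℝ} {D₀ D D₁ : Stmt.Exterior n} {ξ : Fin (n + 1) → ℝ} {m : ℝ} {P : Fin n → ℝ}

/-- In the case of equality the difference of the second fundamental forms vanishes. -/
theorem h0_of_frameG [Fact (3 ≤ n)] (hS : IsSliceL C l V f D₀) (hξ : IsFut ξ)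
    (hM : MixS l V f ξ D) (hR : IsRefG l V f ξ D₀ D)
    (hB : PosB C l V f D₀ (aa ξ) (fun i => Bk (ksL l V) f (difM D₀ D) (xi (aa ξ)) i) m P)
    (hr : ∀ i, ξ 0 * P i = - (ξ i.succ * m))
    (hle : √(m ^ 2 - ∑ i, P i ^ 2) ≤
      1 / 2 * (SI C.toDat.dt / om n) ^ (((n : ℝ) - 2) / ((n : ℝ) - 1))) :
    ∀ y, 0 < D.F y → ∀ i j, dif D₀ D y i j = 0 := by
  intro y hy i j
  obtain ⟨T, hTA, hTb, -⟩ := toTen C.toDat
  obtain ⟨-, hp, -⟩ := frame_ineqB hS hB hξ.2 hξ.1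
  obtain ⟨-, h8⟩ := rest_frame hξ.2 hξ.1 hr hp
  have heq : Shell.e0 (aa ξ) * m + ∑ i, aa ξ i * P i ≤
      1 / 2 * (SI C.toDat.dt / om n) ^ (((n : ℝ) - 2) / ((n : ℝ) - 1)) := by
    rw [en_aa hξ.2 hξ.1, ← h8]
    exact hle
  obtain ⟨h1, -⟩ := frame_eqB hS hB hTA hTb heq
  have hev : ∀ᶠ z in 𝓝 y, 0 ≤ D₀.F z := by
    rw [hR.dom]
    exact KSS.near_pos hy
  have h2 := (dif_zeroG hS hξ hM hR hev (h1 y hev.self_of_nhds)).1 i j
  unfold dif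
  rw [h2, sub_self]

/-- The Penrose inequality in the frame of `ξ`, and in the rest frame. -/
theorem ref_mainG [Fact (3 ≤ n)] (hS : IsSliceL C l V f D₀) (hAF₀ : D₀.IsAF) (hξ : IsFut ξ)
    (hM : MixS l V f ξ D) (hR : IsRefG l V f ξ D₀ D) (hAF : D.IsAF) (hT : D.Trapped)
    (hm : D.IsEnergy m) (hP : D.IsMomentum P) (h₁ : IsOuter D D₁) :
    (D₁.Amin ≤ D.area D.F ∧ D.area D.F ≠ ⊤ ∧
      (D₁.Amin.toReal / Stmt.omega n) ^ (((n : ℝ) - 2) / ((n : ℝ) - 1)) / 2 ≤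
        ((D.area D.F).toReal / Stmt.omega n) ^ (((n : ℝ) - 2) / ((n : ℝ) - 1)) / 2 ∧
      ((D.area D.F).toReal / Stmt.omega n) ^ (((n : ℝ) - 2) / ((n : ℝ) - 1)) / 2 ≤
        (ξ 0 * m + ∑ i : Fin n, ξ i.succ * P i) / √(ξ 0 ^ 2 - ∑ i : Fin n, ξ i.succ ^ 2)) ∧
    ((∀ i, ξ 0 * P i = -(ξ i.succ * m)) → √(∑ i, P i ^ 2) < m ∧
      ((D.area D.F).toReal / Stmt.omega n) ^ (((n : ℝ) - 2) / ((n : ℝ) - 1)) / 2 ≤
        √(m ^ 2 - ∑ i, P i ^ 2) ∧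
      ∀ lam : E n → ℝ, IsGradient C lam l f D →
        ((D.area D.F).toReal / Stmt.omega n) ^ (((n : ℝ) - 2) / ((n : ℝ) - 1)) / 2 =
          √(m ^ 2 - ∑ i, P i ^ 2) → ∃ c r₀, IsSchwSlice c r₀ f D) := by
  obtain ⟨h1, h2, -, h4, h5⟩ := area_all' hS
  rw [area_eq hR.dom hR.met] at h1 h2 h4 h5
  have hB := posB_ofG hS hAF₀ hAF hξ hM hR hm hP
    (fun T hA hb x hx => SH.bdB_ofG hξ hS hR hT T hA hb x hx)
  obtain ⟨-, hp, -⟩ := frame_ineqB hS hB hξ.2 hξ.1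
  have h6 := frame_posB hS hB
  rw [en_aa hξ.2 hξ.1] at h6
  have h1' : D₁.Amin ≤ D.area D.F := (outer_Amin h₁).trans (amin_le D)
  have hmono : (D₁.Amin.toReal / Stmt.omega n) ^ (((n : ℝ) - 2) / ((n : ℝ) - 1)) / 2 ≤
        ((D.area D.F).toReal / Stmt.omega n) ^ (((n : ℝ) - 2) / ((n : ℝ) - 1)) / 2 := by
    have h3 : (3 : ℝ) ≤ (n : ℝ) := by exact_mod_cast Fact.out (p := 3 ≤ n)
    have hom : 0 ≤ Stmt.omega n := by
      unfold Stmt.omega Stmt.sphInt Stmt.sph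
      exact mul_nonneg (by positivity) (integral_nonneg fun _ => zero_le_one)
    have htop' : D₁.Amin ≠ ⊤ := ne_top_of_le_ne_top h2 h1'
    have h2' : D₁.Amin.toReal ≤ (D.area D.F).toReal := (ENNReal.toReal_le_toReal htop' h2).2 h1'
    have h4' := Real.rpow_le_rpow (div_nonneg ENNReal.toReal_nonneg hom)
      (div_le_div_of_nonneg_right h2' hom)
      (show 0 ≤ ((n : ℝ) - 2) / ((n : ℝ) - 1) from by
        have h5 : 0 < (n : ℝ) - 1 := by linarith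
        exact div_nonneg (by linarith) h5.le)
    linarith
  refine ⟨⟨h1', h2, hmono, h5.trans h6⟩, fun hr => ?_⟩
  obtain ⟨h7, h8⟩ := rest_frame hξ.2 hξ.1 hr hp
  refine ⟨h7, ?_, fun lam hL heq => ?_⟩
  · rw [h8]
    exact h5.trans h6
  · have hle : √(m ^ 2 - ∑ i, P i ^ 2) ≤
        1 / 2 * (SI C.toDat.dt / om n) ^ (((n : ℝ) - 2) / ((n : ℝ) - 1)) := heq ▸ h5
    exact KSS.schwarz_data_le (KSS.slice_of_eq hS hR.dom hR.met
      (h0_of_frameG hS hξ hM hR hB hr hle)) hL hξ hM.dec hM.geo hM.mix hAF hT hm hP hr hle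

end Vale.Agent.P366.KSD
end
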